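import Vale.Agent.P092.H514.NoInvR

/-!
P092 (helper514), Team D, block [D-NI], instance: `ℙ k (ι → k)`, `k` any locally compact
nontrivially normed field (real, complex, p-adic), `ι` with at least two elements.
-/

set_option linter.all false

open MeasureTheory Topology Filter Set
open scoped Pointwise LinearAlgebra.Projectivization Matrix

namespace Vale.Agent.P092.H514.NI

open Vale.Agent.P092.H820

section bump

variable {k : Type*} [NontriviallyNormedField k] {ι : Type*} [Fintype ι] [DecidableEq ι]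

/-- the size of the coordinates different from `i` -/
noncomputable def mo (i : ι) (v : ι → k) : ℝ := ‖Function.update v i 0‖

theorem mo_nonneg (i : ι) (v : ι → k) : 0 ≤ mo i v := norm_nonneg _

theorem le_mo (i : ι) (v : ι → k) {l : ι} (hl : l ≠ i) : ‖v l‖ ≤ mo i v := by
  have := norm_le_pi_norm (Function.update v i 0) l
  rwa [Function.update_of_ne hl] at this

theorem mo_le (i : ι) (v : ι → k) {r : ℝ} (hr : 0 ≤ r) (h : ∀ l, l ≠ i → ‖v l‖ ≤ r) :
    mo i v ≤ r := by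
  refine (pi_norm_le_iff_of_nonneg hr).2 fun l => ?_
  by_cases hl : l = i
  · subst hl; simpa using hr
  · rw [Function.update_of_ne hl]; exact h l hl

theorem norm_le_mo (i : ι) (v : ι → k) (h : mo i v ≤ ‖v i‖) : ‖v‖ ≤ ‖v i‖ := by
  refine (pi_norm_le_iff_of_nonneg (norm_nonneg _)).2 fun l => ?_
  by_cases hl : l = i
  · subst hl; exact le_rfl
  · exact (le_mo i v hl).trans h

theorem mo_cont (i : ι) : Continuous (mo i : (ι → k) → ℝ) := by
  unfold mo
  exact (continuous_id.update i continuous_const).norm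

theorem mo_smul (i : ι) (c : k) (v : ι → k) : mo i (c • v) = ‖c‖ * mo i v := by
  unfold mo
  rw [← norm_smul]
  congr 1
  funext l
  by_cases hl : l = i
  · subst hl; simp
  · simp [Function.update_of_ne hl]

/-- the bump on vectors -/
noncomputable def bu (i : ι) (v : ι → k) : ℝ := min 1 (max 0 ((2 * ‖v i‖ - mo i v) / ‖v‖))

theorem bu_smul (i : ι) (c : k) (hc : c ≠ 0) (v : ι → k) : bu i (c • v) = bu i v := by
  have hc' : 0 < ‖c‖ := norm_pos_iff.2 hc
  unfold bu
  rw [mo_smul, norm_smul, Pi.smul_apply, norm_smul]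
  congr 2
  rw [show 2 * (‖c‖ * ‖v i‖) - ‖c‖ * mo i v = ‖c‖ * (2 * ‖v i‖ - mo i v) by ring]
  exact mul_div_mul_left _ _ hc'.ne'

theorem bu_nonneg (i : ι) (v : ι → k) : 0 ≤ bu i v := le_min zero_le_one (le_max_left _ _)

theorem bu_le (i : ι) (v : ι → k) : bu i v ≤ 1 := min_le_left _ _

theorem bu_one (i : ι) (v : ι → k) (hv : v ≠ 0) (h : mo i v ≤ ‖v i‖) : bu i v = 1 := by
  have h0 : 0 < ‖v‖ := norm_pos_iff.2 hv
  have h1 := norm_le_mo i v h
  have h2 : 1 ≤ (2 * ‖v i‖ - mo i v) / ‖v‖ := by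
    rw [le_div_iff₀ h0]
    linarith
  unfold bu
  exact min_eq_left (h2.trans (le_max_right _ _))

theorem bu_ne (i : ι) (v : ι → k) (h : bu i v ≠ 0) : mo i v < 2 * ‖v i‖ := by
  by_contra hn
  push Not at hn
  apply h
  have h2 : (2 * ‖v i‖ - mo i v) / ‖v‖ ≤ 0 :=
    div_nonpos_of_nonpos_of_nonneg (by linarith) (norm_nonneg _)
  unfold bu
  rw [max_eq_left h2]
  simp

/-- the bump on the projective space -/
noncomputable def BU (k : Type*) [NontriviallyNormedField k] {ι : Type*} [Fintype ι]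
    [DecidableEq ι] (i : ι) : C(ℙ k (ι → k), ℝ) where
  toFun x := bu i x.rep
  continuous_toFun := by
    rw [(pj_oq (k := k) (ι := ι)).isQuotientMap.continuous_iff]
    have e : ((fun x : ℙ k (ι → k) => bu i x.rep) ∘ pj k ι) = fun v => bu i v.1 := by
      funext v
      obtain ⟨c, hc⟩ := Projectivization.exists_smul_eq_mk_rep k v.1 v.2
      have h1 : (pj k ι v).rep = c • v.1 := hc.symm
      change bu i (pj k ι v).rep = _
      rw [h1]
      exact bu_smul i (c : k) c.ne_zero v.1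
    rw [e]
    unfold bu
    refine continuous_const.min (continuous_const.max ?_)
    refine Continuous.div ?_ continuous_subtype_val.norm fun v => (norm_pos_iff.2 v.2).ne'
    refine (continuous_const.mul ?_).sub ((mo_cont i).comp continuous_subtype_val)
    exact ((continuous_apply i).comp continuous_subtype_val).norm

theorem BU_pj (i : ι) (v : {v : ι → k // v ≠ 0}) : BU k i (pj k ι v) = bu i v.1 := by
  obtain ⟨c, hc⟩ := Projectivization.exists_smul_eq_mk_rep k v.1 v.2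
  have h1 : (pj k ι v).rep = c • v.1 := hc.symm
  change bu i (pj k ι v).rep = _
  rw [h1]
  exact bu_smul i (c : k) c.ne_zero v.1

theorem smul_pj (g : Matrix.SpecialLinearGroup ι k) (v : {v : ι → k // v ≠ 0}) :
    g • pj k ι v = pj k ι ⟨g • v.1, (smul_ne_zero_iff_ne g).2 v.2⟩ := rfl

/-- the transvection as an element of `SL` -/
def tv' {i j : ι} (h : i ≠ j) (c : k) : Matrix.SpecialLinearGroup ι k :=
  ⟨Matrix.transvection i j c, Matrix.det_transvection_of_ne i j h c⟩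

/-- the transvection as an element of `SL` -/
def tv (i j : ι) (c : k) : Matrix.SpecialLinearGroup ι k :=
  if h : i ≠ j then tv' h c else 1

theorem tv_smul {i j : ι} (h : i ≠ j) (c : k) (v : ι → k) (l : ι) :
    (tv i j c • v) l = if l = i then v i + c * v j else v l := by
  have e : (tv i j c • v) = (Matrix.transvection i j c) *ᵥ v := by
    rw [tv, dif_pos h]
    rfl
  rw [e, Matrix.transvection, Matrix.add_mulVec, Matrix.one_mulVec, Matrix.single_mulVec]
  by_cases hl : l = i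
  · subst hl
    simp
  · simp [hl, Function.update_of_ne]

/-- the diagonal element with `s^(n-1)` at `i` and `s⁻¹` elsewhere -/
def dgi (i : ι) (s : k) (hs : s ≠ 0) : Matrix.SpecialLinearGroup ι k :=
  ⟨Matrix.diagonal fun l => if l = i then s ^ (Fintype.card ι - 1) else s⁻¹, by
    rw [Matrix.det_diagonal, ← Finset.mul_prod_erase _ _ (Finset.mem_univ i), if_pos rfl,
      Finset.prod_congr rfl (fun l hl => if_neg (Finset.ne_of_mem_erase hl)),
      Finset.prod_const, Finset.card_erase_of_mem (Finset.mem_univ i), Finset.card_univ, inv_pow,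
      mul_inv_cancel₀ (pow_ne_zero _ hs)]⟩

theorem dgi_smul (i : ι) (s : k) (hs : s ≠ 0) (v : ι → k) (l : ι) :
    (dgi i s hs • v) l = if l = i then s ^ (Fintype.card ι - 1) * v i else s⁻¹ * v l := by
  have e : (dgi i s hs • v) = (Matrix.diagonal fun l => if l = i then s ^ (Fintype.card ι - 1)
      else s⁻¹) *ᵥ v := rfl
  rw [e, Matrix.mulVec_diagonal]
  by_cases hl : l = i
  · subst hl; simp
  · simp [hl]

theorem mo_dgi (i : ι) (s : k) (hs : s ≠ 0) (v : ι → k) :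
    ‖s‖⁻¹ * mo i v ≤ mo i (dgi i s hs • v) := by
  have hs' : 0 < ‖s‖ := norm_pos_iff.2 hs
  rw [inv_mul_le_iff₀ hs']
  refine mo_le i v (mul_nonneg hs'.le (mo_nonneg _ _)) fun l hl => ?_
  have := le_mo i (dgi i s hs • v) hl
  rw [dgi_smul, if_neg hl, norm_mul, norm_inv, inv_mul_le_iff₀ hs'] at this
  exact this

/-- the data used in the abstract theorem -/
theorem exists_data {i j : ι} (hij : i ≠ j) :
    ∃ (F : C(ℙ k (ι → k), ℝ)) (a b : Matrix.SpecialLinearGroup ι k)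
      (T : Finset (Matrix.SpecialLinearGroup ι k)),
      0 ≤ F ∧ (∀ x, F (a • x) + F (b • x) ≤ F x) ∧ ∀ x, 1 ≤ ∑ g ∈ T, F (g • x) := by
  classical
  obtain ⟨c, hc0, hc1⟩ := NormedField.exists_norm_lt k (show (0 : ℝ) < 1 / 2 by norm_num)
  obtain ⟨s, hs0, hs1⟩ := NormedField.exists_norm_lt k (show (0 : ℝ) < ‖c‖ / 4 by linarith)
  obtain ⟨C, hC⟩ := NormedField.exists_lt_norm k 4
  have hsne : s ≠ 0 := norm_pos_iff.1 hs0
  have hs_le : ‖s‖ ≤ 1 := by linarith
  have hcard : 2 ≤ Fintype.card ι := by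
    have : Nontrivial ι := ⟨i, j, hij⟩
    exact Fintype.one_lt_card
  set a : Matrix.SpecialLinearGroup ι k := dgi i s hsne with ha
  set u : Matrix.SpecialLinearGroup ι k := tv j i (-c) with hu
  -- the support of `F ∘ a`
  have key : ∀ v : ι → k, v ≠ 0 → bu i (a • v) ≠ 0 → mo i v ≤ ‖c‖ / 2 * ‖v i‖ ∧ 0 < ‖v i‖ := by
    intro v hv h
    have h2 := bu_ne i _ h
    rw [ha, dgi_smul, if_pos rfl, norm_mul, norm_pow] at h2
    have h3 := (mo_dgi i s hsne v).trans_lt h2
    rw [inv_mul_lt_iff₀ hs0] at h3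
    have h4 : ‖s‖ ^ (Fintype.card ι - 1) ≤ 1 := pow_le_one₀ hs0.le hs_le
    have h5 : ‖s‖ * (2 * (‖s‖ ^ (Fintype.card ι - 1) * ‖v i‖)) ≤ ‖c‖ / 2 * ‖v i‖ := by
      have h6 : ‖s‖ ^ (Fintype.card ι - 1) * ‖v i‖ ≤ ‖v i‖ := by
        calc _ ≤ 1 * ‖v i‖ := by gcongr
          _ = _ := one_mul _
      calc ‖s‖ * (2 * (‖s‖ ^ (Fintype.card ι - 1) * ‖v i‖))
          ≤ (‖c‖ / 4) * (2 * ‖v i‖) := by gcongr
        _ = _ := by ring
    refine ⟨h3.le.trans h5, ?_⟩
    by_contra hn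
    have h7 : ‖v i‖ = 0 := le_antisymm (not_lt.1 hn) (norm_nonneg _)
    rw [h7] at h5 h3
    have h8 := mo_nonneg i v
    simp at h3
    linarith
  have hnn : ∀ v : {v : ι → k // v ≠ 0}, ∀ g : Matrix.SpecialLinearGroup ι k,
      BU k i (g • pj k ι v) = bu i (g • v.1) := fun v g => by rw [smul_pj, BU_pj]
  refine ⟨BU k i, a, a * u, Finset.image (fun l => if l = i then 1 else tv i l C) Finset.univ,
    fun x => ?_, fun x => ?_, fun x => ?_⟩
  · exact bu_nonneg i _
  · obtain ⟨v, rfl⟩ := pj_surj x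
    rw [hnn, hnn, BU_pj, mul_smul]
    have hu0 : u • v.1 ≠ 0 := (smul_ne_zero_iff_ne u).2 v.2
    have hui : (u • v.1) i = v.1 i := by
      rw [hu, tv_smul hij.symm, if_neg hij]
    have huj : (u • v.1) j = v.1 j - c * v.1 i := by
      rw [hu, tv_smul hij.symm, if_pos rfl]; ring
    by_cases hA : bu i (a • v.1) = 0
    · by_cases hB : bu i (a • u • v.1) = 0
      · rw [hA, hB, add_zero]
        exact bu_nonneg i _
      · obtain ⟨k1, k2⟩ := key _ hu0 hB
        rw [hui] at k1 k2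
        have e1 : bu i v.1 = 1 := by
          refine bu_one i _ v.2 (mo_le i _ (norm_nonneg _) fun l hl => ?_)
          by_cases hlj : l = j
          · subst hlj
            have h2 := le_mo i (u • v.1) hl
            rw [huj] at h2
            have h3 : ‖v.1 l‖ ≤ ‖v.1 l - c * v.1 i‖ + ‖c‖ * ‖v.1 i‖ := by
              calc ‖v.1 l‖ = ‖(v.1 l - c * v.1 i) + c * v.1 i‖ := by rw [sub_add_cancel]
                _ ≤ ‖v.1 l - c * v.1 i‖ + ‖c * v.1 i‖ := norm_add_le _ _
                _ = _ := by rw [norm_mul]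
            nlinarith
          · have h2 := le_mo i (u • v.1) hl
            rw [hu, tv_smul hij.symm, if_neg hlj, ← hu] at h2
            nlinarith
        rw [hA, e1, zero_add]
        exact bu_le i _
    · obtain ⟨k1, k2⟩ := key _ v.2 hA
      have e1 : bu i v.1 = 1 := bu_one i _ v.2 (by nlinarith)
      have e2 : bu i (a • u • v.1) = 0 := by
        by_contra hB
        obtain ⟨m1, m2⟩ := key _ hu0 hB
        rw [hui] at m1 m2
        have h2 := (le_mo i (u • v.1) hij.symm).trans m1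
        have h3 := (le_mo i v.1 hij.symm).trans k1
        rw [huj] at h2
        have h4 : ‖c‖ * ‖v.1 i‖ ≤ ‖v.1 j - c * v.1 i‖ + ‖v.1 j‖ := by
          calc ‖c‖ * ‖v.1 i‖ = ‖c * v.1 i‖ := (norm_mul _ _).symm
            _ = ‖-(v.1 j - c * v.1 i) + v.1 j‖ := by congr 1; ring
            _ ≤ ‖-(v.1 j - c * v.1 i)‖ + ‖v.1 j‖ := norm_add_le _ _
            _ = _ := by rw [norm_neg]
        have h5 : bu i v.1 = 1 := e1
        -- equality case excluded by strictness
        have h6 := bu_ne i _ hA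
        rw [ha, dgi_smul, if_pos rfl, norm_mul, norm_pow] at h6
        have h7 := (mo_dgi i s hsne v.1).trans_lt h6
        rw [inv_mul_lt_iff₀ hs0] at h7
        have h8 : ‖s‖ ^ (Fintype.card ι - 1) * ‖v.1 i‖ ≤ ‖v.1 i‖ := by
          calc _ ≤ 1 * ‖v.1 i‖ := by
                gcongr
                exact pow_le_one₀ hs0.le hs_le
            _ = _ := one_mul _
        have h9 : ‖s‖ * (2 * (‖s‖ ^ (Fintype.card ι - 1) * ‖v.1 i‖)) < ‖c‖ / 2 * ‖v.1 i‖ := by
          calc ‖s‖ * (2 * (‖s‖ ^ (Fintype.card ι - 1) * ‖v.1 i‖))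
              ≤ ‖s‖ * (2 * ‖v.1 i‖) := by gcongr
            _ < (‖c‖ / 4) * (2 * ‖v.1 i‖) := by gcongr
            _ = _ := by ring
        have h10 := (le_mo i v.1 hij.symm).trans_lt (h7.trans h9)
        linarith
      rw [e1, e2, add_zero]
      exact bu_le i _
  · obtain ⟨v, rfl⟩ := pj_surj x
    obtain ⟨l, -, hl⟩ := Finset.exists_max_image Finset.univ (fun l => ‖v.1 l‖) ⟨i, Finset.mem_univ i⟩
    have hmax : ∀ l', ‖v.1 l'‖ ≤ ‖v.1 l‖ := fun l' => hl l' (Finset.mem_univ _)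
    have hlpos : 0 < ‖v.1 l‖ := by
      refine (norm_nonneg _).lt_of_ne fun h0 => v.2 ?_
      funext l'
      have := hmax l'
      rw [← h0] at this
      exact norm_le_zero_iff.1 this
    set g : Matrix.SpecialLinearGroup ι k := if l = i then 1 else tv i l C with hg
    have hgF : BU k i (g • pj k ι v) = 1 := by
      rw [hnn]
      refine bu_one i _ ((smul_ne_zero_iff_ne g).2 v.2) ?_
      by_cases hli : l = i
      · rw [hg, if_pos hli, one_smul]
        refine mo_le i _ (norm_nonneg _) fun l' _ => ?_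
        rw [← hli]
        exact hmax l'
      · have e1 : (g • v.1) i = v.1 i + C * v.1 l := by
          rw [hg, if_neg hli, tv_smul (Ne.symm hli), if_pos rfl]
        refine mo_le i _ (norm_nonneg _) fun l' hl' => ?_
        have e2 : (g • v.1) l' = v.1 l' := by
          rw [hg, if_neg hli, tv_smul (Ne.symm hli), if_neg hl']
        rw [e1, e2]
        have h2 : ‖C‖ * ‖v.1 l‖ ≤ ‖v.1 i + C * v.1 l‖ + ‖v.1 i‖ := by
          calc ‖C‖ * ‖v.1 l‖ = ‖C * v.1 l‖ := (norm_mul _ _).symm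
            _ = ‖(v.1 i + C * v.1 l) - v.1 i‖ := by congr 1; ring
            _ ≤ _ := norm_sub_le _ _
        have h3 := hmax l'
        have h4 := hmax i
        nlinarith
    calc (1 : ℝ) = BU k i (g • pj k ι v) := hgF.symm
      _ ≤ _ := Finset.single_le_sum (f := fun g : Matrix.SpecialLinearGroup ι k =>
          BU k i (g • pj k ι v)) (fun g _ => bu_nonneg i _)
          (Finset.mem_image.2 ⟨l, Finset.mem_univ l, rfl⟩)

/-- the covolume hypothesis, literally the field `IsLattice.covol` -/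
def Covol {E : Type*} [Group E] [TopologicalSpace E] (Γ : Subgroup E) : Prop :=
  ∃ ν : @Measure (E ⧸ Γ) (borel (E ⧸ Γ)), ν ≠ 0 ∧ ν Set.univ < ⊤ ∧
      ∀ g : E, ∀ s : Set (E ⧸ Γ), MeasurableSet[borel (E ⧸ Γ)] s →
      ν ((fun x => g • x) ⁻¹' s) = ν s

/-- **[D-NI]**, with a twist by an automorphism `θ` (for lines take `θ g` = inverse transpose):
no positive unital functional on `C(ℙ k (ι → k), ℝ)` is invariant under a subgroup of finite
covolume. -/
theorem no_inv_tw [ProperSpace k] {i j : ι} (hij : i ≠ j)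
    (θ : Matrix.SpecialLinearGroup ι k ≃* Matrix.SpecialLinearGroup ι k) (hθ : Continuous θ)
    (Γ : Subgroup (Matrix.SpecialLinearGroup ι k)) (hΓ : Covol Γ)
    (φ : C(ℙ k (ι → k), ℝ) →ₗ[ℝ] ℝ) (hpos : ∀ F : C(ℙ k (ι → k), ℝ), 0 ≤ F → 0 ≤ φ F)
    (h1 : φ 1 = 1)
    (hinv : ∀ γ ∈ Γ, ∀ F : C(ℙ k (ι → k), ℝ), φ (tr F (θ γ)) = φ F) : False := by
  classical
  obtain ⟨ν, hν0, hνf, hν⟩ := hΓ
  obtain ⟨F, a, b, T, hF, hab, hT⟩ := exists_data (k := k) hij
  refine no_inv (θ : Matrix.SpecialLinearGroup ι k →* Matrix.SpecialLinearGroup ι k) hθ Γ ν hν0 hνf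
    hν F hF (θ.symm a) (θ.symm b) (fun x => ?_) (T.image θ.symm) (fun x => ?_) φ hpos h1
    (fun γ hγ F => hinv γ hγ F)
  · simp only [MonoidHom.coe_coe, MulEquiv.apply_symm_apply]
    exact hab x
  · rw [Finset.sum_image (fun x _ y _ h => θ.symm.injective h)]
    simp only [MonoidHom.coe_coe, MulEquiv.apply_symm_apply]
    exact hT x

/-- **[D-NI]**: no positive unital functional on `C(ℙ k (ι → k), ℝ)` is invariant under a subgroup
of finite covolume. -/
theorem no_inv_P [ProperSpace k] {i j : ι} (hij : i ≠ j)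
    (Γ : Subgroup (Matrix.SpecialLinearGroup ι k)) (hΓ : Covol Γ)
    (φ : C(ℙ k (ι → k), ℝ) →ₗ[ℝ] ℝ) (hpos : ∀ F : C(ℙ k (ι → k), ℝ), 0 ≤ F → 0 ≤ φ F)
    (h1 : φ 1 = 1)
    (hinv : ∀ γ ∈ Γ, ∀ F : C(ℙ k (ι → k), ℝ), φ (tr F γ) = φ F) : False :=
  no_inv_tw hij (MulEquiv.refl _) continuous_id Γ hΓ φ hpos h1 hinv

/-- inverse transpose -/
def itr : Matrix.SpecialLinearGroup ι k ≃* Matrix.SpecialLinearGroup ι k where
  toFun g := (g⁻¹).transpose
  invFun g := (g⁻¹).transpose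
  left_inv g := by
    apply Subtype.ext
    change (Matrix.adjugate (Matrix.adjugate g.1)ᵀ)ᵀ = g.1
    rw [← Matrix.adjugate_transpose, Matrix.transpose_transpose]
    exact congrArg Subtype.val (inv_inv g)
  right_inv g := by
    apply Subtype.ext
    change (Matrix.adjugate (Matrix.adjugate g.1)ᵀ)ᵀ = g.1
    rw [← Matrix.adjugate_transpose, Matrix.transpose_transpose]
    exact congrArg Subtype.val (inv_inv g)
  map_mul' g h := by
    apply Subtype.ext
    change (Matrix.adjugate (g.1 * h.1))ᵀ = (Matrix.adjugate g.1)ᵀ * (Matrix.adjugate h.1)ᵀ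
    rw [Matrix.adjugate_mul_distrib, Matrix.transpose_mul]

/-- a real function as a complex one -/
def toC {X : Type*} [TopologicalSpace X] (F : C(X, ℝ)) : C(X, ℂ) :=
  ⟨fun x => (F x : ℂ), Complex.continuous_ofReal.comp F.continuous⟩

/-- **[D-NI]** for complex functionals, twisted form -/
theorem no_inv_C_tw [ProperSpace k] {i j : ι} (hij : i ≠ j)
    (θ : Matrix.SpecialLinearGroup ι k ≃* Matrix.SpecialLinearGroup ι k) (hθ : Continuous θ)
    (Γ : Subgroup (Matrix.SpecialLinearGroup ι k)) (hΓ : Covol Γ)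
    (φ : C(ℙ k (ι → k), ℂ) →ₗ[ℂ] ℂ)
    (hpos : ∀ F : C(ℙ k (ι → k), ℝ), 0 ≤ F → 0 ≤ (φ (toC F)).re) (h1 : φ 1 = 1)
    (hinv : ∀ γ ∈ Γ, ∀ F : C(ℙ k (ι → k), ℂ), φ (tr F (θ γ)) = φ F) : False := by
  let ψ : C(ℙ k (ι → k), ℝ) →ₗ[ℝ] ℝ :=
    { toFun := fun F => (φ (toC F)).re
      map_add' := fun F G => by
        have : toC (F + G) = toC F + toC G := by ext x; simp [toC]
        rw [this, map_add, Complex.add_re]
      map_smul' := fun c F => by
        have : toC (c • F) = (c : ℂ) • toC F := by ext x; simp [toC]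
        rw [this, map_smul]
        simp }
  refine no_inv_tw hij θ hθ Γ hΓ ψ hpos ?_ fun γ hγ F => ?_
  · have : toC (1 : C(ℙ k (ι → k), ℝ)) = 1 := by ext x; simp [toC]
    change (φ (toC 1)).re = 1
    rw [this, h1, Complex.one_re]
  · change (φ (toC (tr F (θ γ)))).re = (φ (toC F)).re
    rw [← hinv γ hγ (toC F)]
    rfl

/-- **[D-NI]** for `*`-homomorphisms: a unital `*`-homomorphism `β : C(ℙ, ℂ) → 𝔸` and a positive
functional `τ` on `𝔸` with `τ 1 = 1` cannot be such that `τ ∘ β` is invariant. -/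
theorem no_inv_hom_tw [ProperSpace k] {i j : ι} (hij : i ≠ j)
    (θ : Matrix.SpecialLinearGroup ι k ≃* Matrix.SpecialLinearGroup ι k) (hθ : Continuous θ)
    (Γ : Subgroup (Matrix.SpecialLinearGroup ι k)) (hΓ : Covol Γ)
    {𝔸 : Type*} [Ring 𝔸] [StarRing 𝔸] [Algebra ℂ 𝔸]
    (β : C(ℙ k (ι → k), ℂ) →⋆ₐ[ℂ] 𝔸) (τ : 𝔸 →ₗ[ℂ] ℂ) (hτ : ∀ a : 𝔸, 0 ≤ (τ (star a * a)).re)
    (h1 : τ 1 = 1)
    (hinv : ∀ γ ∈ Γ, ∀ F : C(ℙ k (ι → k), ℂ), τ (β (tr F (θ γ))) = τ (β F)) : False := by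
  refine no_inv_C_tw hij θ hθ Γ hΓ (τ.comp β.toAlgHom.toLinearMap) (fun F hF => ?_) ?_
    fun γ hγ F => hinv γ hγ F
  · let G : C(ℙ k (ι → k), ℝ) := ⟨fun x => Real.sqrt (F x), F.continuous.sqrt⟩
    have e : toC F = star (toC G) * toC G := by
      ext x
      simp only [toC, ContinuousMap.coe_mk, ContinuousMap.mul_apply, ContinuousMap.star_apply,
        Complex.star_def, Complex.conj_ofReal, ← Complex.ofReal_mul, G]
      exact congrArg _ (Real.mul_self_sqrt (hF x)).symm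
    change 0 ≤ (τ (β (toC F))).re
    rw [e, map_mul, map_star]
    exact hτ _
  · change τ (β 1) = 1
    rw [map_one, h1]

/-- points -/
theorem no_inv_hom [ProperSpace k] {i j : ι} (hij : i ≠ j)
    (Γ : Subgroup (Matrix.SpecialLinearGroup ι k)) (hΓ : Covol Γ)
    {𝔸 : Type*} [Ring 𝔸] [StarRing 𝔸] [Algebra ℂ 𝔸]
    (β : C(ℙ k (ι → k), ℂ) →⋆ₐ[ℂ] 𝔸) (τ : 𝔸 →ₗ[ℂ] ℂ) (hτ : ∀ a : 𝔸, 0 ≤ (τ (star a * a)).re)
    (h1 : τ 1 = 1)
    (hinv : ∀ γ ∈ Γ, ∀ F : C(ℙ k (ι → k), ℂ), τ (β (tr F γ)) = τ (β F)) : False :=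
  no_inv_hom_tw hij (MulEquiv.refl _) continuous_id Γ hΓ β τ hτ h1 hinv

theorem itr_cont : Continuous (itr : Matrix.SpecialLinearGroup ι k → _) := by
  have h : Continuous fun g : Matrix.SpecialLinearGroup ι k => (Matrix.adjugate g.1)ᵀ :=
    (continuous_subtype_val.matrix_adjugate).matrix_transpose
  exact Continuous.subtype_mk h _

/-- lines -/
theorem no_inv_hom_dual [ProperSpace k] {i j : ι} (hij : i ≠ j)
    (Γ : Subgroup (Matrix.SpecialLinearGroup ι k)) (hΓ : Covol Γ)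
    {𝔸 : Type*} [Ring 𝔸] [StarRing 𝔸] [Algebra ℂ 𝔸]
    (β : C(ℙ k (ι → k), ℂ) →⋆ₐ[ℂ] 𝔸) (τ : 𝔸 →ₗ[ℂ] ℂ) (hτ : ∀ a : 𝔸, 0 ≤ (τ (star a * a)).re)
    (h1 : τ 1 = 1)
    (hinv : ∀ γ ∈ Γ, ∀ F : C(ℙ k (ι → k), ℂ), τ (β (tr F (itr γ))) = τ (β F)) : False :=
  no_inv_hom_tw hij itr itr_cont Γ hΓ β τ hτ h1 hinv

end bump

end Vale.Agent.P092.H514.NI
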