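import Vale.Agent.P092.H820.Pn

/-!
P092 (helper514), Team D, block [D-NI]: no positive unital functional on `C(X, ℝ)`, `X` a projective
space over any (nontrivially normed, proper) field, is invariant under a subgroup of finite covolume
of `SL_n(k)`, `n ≥ 2`.
-/

set_option linter.all false

open MeasureTheory Topology Filter Set
open scoped Pointwise LinearAlgebra.Projectivization Matrix

namespace Vale.Agent.P092.H514.NI

section abs

variable {E X : Type*} [Group E] [TopologicalSpace E] [IsTopologicalGroup E]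
  [TopologicalSpace X] [MulAction E X] [ContinuousSMul E X]

/-- the translate `x ↦ F (g x)` -/
def tr {R : Type*} [TopologicalSpace R] (F : C(X, R)) (g : E) : C(X, R) :=
  ⟨fun x => F (g • x), F.continuous.comp (continuous_const_smul g)⟩

@[simp] theorem tr_apply {R : Type*} [TopologicalSpace R] (F : C(X, R)) (g : E) (x : X) :
    tr F g x = F (g • x) := rfl

theorem tr_tr {R : Type*} [TopologicalSpace R] (F : C(X, R)) (g h : E) :
    tr (tr F g) h = tr F (g * h) := by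
  ext x
  simp [mul_smul]

variable [CompactSpace X]

theorem tr_cont {R : Type*} [TopologicalSpace R] (F : C(X, R)) :
    Continuous fun g : E => tr F g := by
  let G : C(E × X, R) := ⟨fun p => F (p.1 • p.2), F.continuous.comp continuous_smul⟩
  exact G.curry.continuous

theorem pos_le (φ : C(X, ℝ) →ₗ[ℝ] ℝ) (hpos : ∀ F : C(X, ℝ), 0 ≤ F → 0 ≤ φ F) {F G : C(X, ℝ)}
    (h : F ≤ G) : φ F ≤ φ G := by
  have := hpos (G - F) (sub_nonneg.2 h)
  rw [map_sub] at this
  linarith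

theorem pos_abs (φ : C(X, ℝ) →ₗ[ℝ] ℝ) (hpos : ∀ F : C(X, ℝ), 0 ≤ F → 0 ≤ φ F) (h1 : φ 1 = 1)
    (F : C(X, ℝ)) : |φ F| ≤ ‖F‖ := by
  have e : ∀ c : ℝ, φ (c • (1 : C(X, ℝ))) = c := fun c => by rw [map_smul, h1]; simp
  rw [abs_le]
  constructor
  · rw [← e (-‖F‖)]
    refine pos_le φ hpos fun x => ?_
    have := F.norm_coe_le_norm x
    rw [Real.norm_eq_abs, abs_le] at this
    simpa using this.1
  · rw [← e ‖F‖]
    refine pos_le φ hpos fun x => ?_
    have := F.norm_coe_le_norm x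
    rw [Real.norm_eq_abs, abs_le] at this
    simpa using this.2

theorem pos_cont (φ : C(X, ℝ) →ₗ[ℝ] ℝ) (hpos : ∀ F : C(X, ℝ), 0 ≤ F → 0 ≤ φ F) (h1 : φ 1 = 1) :
    Continuous φ :=
  AddMonoidHomClass.continuous_of_bound φ 1 fun F => by
    rw [one_mul, Real.norm_eq_abs]; exact pos_abs φ hpos h1 F

variable {D : Type*} [Group D] [TopologicalSpace D] [IsTopologicalGroup D] (θ : D →* E)

/-- `gΓ ↦ φ (F ∘ θ g)` -/
noncomputable def FU (Γ : Subgroup D) (φ : C(X, ℝ) →ₗ[ℝ] ℝ)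
    (hinv : ∀ γ ∈ Γ, ∀ F : C(X, ℝ), φ (tr F (θ γ)) = φ F) (F : C(X, ℝ)) : D ⧸ Γ → ℝ :=
  Quotient.lift (fun g : D => φ (tr F (θ g))) (by
    intro a b hab
    have h1 : a⁻¹ * b ∈ Γ := QuotientGroup.leftRel_apply.1 hab
    have h2 := hinv _ h1 (tr F (θ a))
    rw [tr_tr, ← map_mul, mul_inv_cancel_left] at h2
    exact h2.symm)

theorem FU_mk {Γ : Subgroup D} {φ : C(X, ℝ) →ₗ[ℝ] ℝ}
    (hinv : ∀ γ ∈ Γ, ∀ F : C(X, ℝ), φ (tr F (θ γ)) = φ F) (F : C(X, ℝ)) (g : D) :
    FU θ Γ φ hinv F (g : D ⧸ Γ) = φ (tr F (θ g)) := rfl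

theorem FU_cont (hθ : Continuous θ) {Γ : Subgroup D} {φ : C(X, ℝ) →ₗ[ℝ] ℝ}
    (hinv : ∀ γ ∈ Γ, ∀ F : C(X, ℝ), φ (tr F (θ γ)) = φ F)
    (hpos : ∀ F : C(X, ℝ), 0 ≤ F → 0 ≤ φ F) (h1 : φ 1 = 1) (F : C(X, ℝ)) :
    Continuous (FU θ Γ φ hinv F) := by
  refine (QuotientGroup.isQuotientMap_mk (N := Γ)).continuous_iff.2 ?_
  exact (pos_cont φ hpos h1).comp ((tr_cont F).comp hθ)

/-- **No invariant mean.** -/
theorem no_inv (hθ : Continuous θ) (Γ : Subgroup D)
    (ν : @Measure (D ⧸ Γ) (borel (D ⧸ Γ))) (hν0 : ν ≠ 0) (hνf : ν univ < ⊤)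
    (hν : ∀ g : D, ∀ s : Set (D ⧸ Γ), MeasurableSet[borel (D ⧸ Γ)] s →
      ν ((fun x => g • x) ⁻¹' s) = ν s)
    (F : C(X, ℝ)) (hF0 : 0 ≤ F) (a b : D) (hab : ∀ x, F (θ a • x) + F (θ b • x) ≤ F x)
    (T : Finset D) (hT : ∀ x, 1 ≤ ∑ g ∈ T, F (θ g • x))
    (φ : C(X, ℝ) →ₗ[ℝ] ℝ) (hpos : ∀ F : C(X, ℝ), 0 ≤ F → 0 ≤ φ F) (h1 : φ 1 = 1)
    (hinv : ∀ γ ∈ Γ, ∀ F : C(X, ℝ), φ (tr F (θ γ)) = φ F) : False := by
  classical
  let _ : MeasurableSpace (D ⧸ Γ) := borel _
  have : BorelSpace (D ⧸ Γ) := ⟨rfl⟩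
  have : IsFiniteMeasure ν := ⟨hνf⟩
  let m : C(X, ℝ) → ℝ := fun F => ∫ x, FU θ Γ φ hinv F x ∂ν
  have hbd : ∀ (F : C(X, ℝ)) x, ‖FU θ Γ φ hinv F x‖ ≤ ‖F‖ := by
    intro F x
    induction x using QuotientGroup.induction_on with
    | H g =>
      rw [FU_mk]
      refine (pos_abs φ hpos h1 _).trans ?_
      refine (ContinuousMap.norm_le _ (norm_nonneg _)).2 fun x => ?_
      exact F.norm_coe_le_norm _
  have hi : ∀ F : C(X, ℝ), Integrable (FU θ Γ φ hinv F) ν := fun F =>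
    Integrable.of_bound (FU_cont θ hθ hinv hpos h1 F).aestronglyMeasurable ‖F‖
      (Eventually.of_forall fun x => hbd F x)
  have hmono : ∀ F G : C(X, ℝ), F ≤ G → m F ≤ m G := by
    intro F G hFG
    refine integral_mono (hi F) (hi G) fun x => ?_
    induction x using QuotientGroup.induction_on with
    | H g =>
      rw [FU_mk, FU_mk]
      exact pos_le φ hpos fun x => hFG _
  have hadd : ∀ F G : C(X, ℝ), m (F + G) = m F + m G := by
    intro F G
    change ∫ x, _ ∂ν = ∫ x, _ ∂ν + ∫ x, _ ∂ν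
    rw [← integral_add (hi F) (hi G)]
    refine integral_congr_ae (Eventually.of_forall fun x => ?_)
    induction x using QuotientGroup.induction_on with
    | H g =>
      simp only [FU_mk]
      rw [← map_add]
      rfl
  have hm0 : m 0 = 0 := by
    have := hadd 0 0
    rw [add_zero] at this
    linarith
  have hg : ∀ (g : D) (F : C(X, ℝ)), m (tr F (θ g)) = m F := by
    intro g F
    have hmp : MeasurePreserving (fun x : D ⧸ Γ => g • x) ν ν := by
      refine ⟨(continuous_const_smul g).measurable, ?_⟩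
      ext s hs
      rw [Measure.map_apply (continuous_const_smul g).measurable hs]
      exact hν _ _ hs
    have e1 := hmp.integral_comp' (f := (Homeomorph.smul g : D ⧸ Γ ≃ₜ D ⧸ Γ).toMeasurableEquiv)
      (FU θ Γ φ hinv F)
    change ∫ x, _ ∂ν = ∫ x, _ ∂ν
    rw [← e1]
    refine integral_congr_ae (Eventually.of_forall fun x => ?_)
    induction x using QuotientGroup.induction_on with
    | H h =>
      change φ (tr (tr F (θ g)) (θ h)) = φ (tr F (θ (g * h)))
      rw [tr_tr, map_mul]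
  have hmF : m F = 0 := by
    have e1 : m (tr F (θ a) + tr F (θ b)) ≤ m F := hmono _ _ fun x => by simpa using hab x
    rw [hadd, hg, hg] at e1
    have e2 : m 0 ≤ m F := hmono _ _ hF0
    rw [hm0] at e2
    linarith
  have hsum : ∀ S : Finset D, m (∑ g ∈ S, tr F (θ g)) = 0 := by
    intro S
    induction S using Finset.induction_on with
    | empty => simpa using hm0
    | insert g S hgS ih => rw [Finset.sum_insert hgS, hadd, hg, hmF, ih, add_zero]
  have h5 : m 1 ≤ 0 := by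
    rw [← hsum T]
    refine hmono _ _ fun x => ?_
    have := hT x
    simpa [ContinuousMap.coe_sum, Finset.sum_apply] using this
  have h7 : m 1 = ν.real univ := by
    have : ∀ x, FU θ Γ φ hinv 1 x = 1 := by
      intro x
      induction x using QuotientGroup.induction_on with
      | H g =>
        rw [FU_mk]
        have : tr (1 : C(X, ℝ)) (θ g) = 1 := by ext x; simp
        rw [this, h1]
    change ∫ x, _ ∂ν = _
    simp only [this]
    simp
  have h8 : ν.real univ = 0 := le_antisymm (h7 ▸ h5) measureReal_nonneg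
  have h9 : ν univ = 0 := by
    rwa [measureReal_def, ENNReal.toReal_eq_zero_iff, or_iff_left hνf.ne] at h8
  exact hν0 (Measure.measure_univ_eq_zero.1 h9)

end abs

end Vale.Agent.P092.H514.NI
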